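import Vale.Agent.P072.H603.Main

/-! # The extended permanence conjecture for endotactic networks -/

open Vale.Agent.P072

/-- (1) Weakly reversible mass-action systems are permanent (the permanence conjecture).
(2) Weakly reversible networks are endotactic. (3) All endotactic mass-action systems are
permanent on every positive stoichiometric class, for all positive constant rates and,
uniformly, for all measurable time-dependent rates with values in `[ε, ε⁻¹]` (the extended
permanence conjecture of Craciun, Nazarov and Pantea). (4) Some endotactic network is not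
weakly reversible. -/
theorem Vale.Agent.Results.P072.EndotacticPermanence.result :
    (∀ (d : ℕ) (G : Network d), G.WeaklyReversible →
      ∀ k : (Fin d → ℕ) × (Fin d → ℕ) → ℝ, (∀ r ∈ G.reactions, 0 < k r) →
      ∀ c : Fin d → ℝ, (∀ i, 0 < c i) → PermanentOn (G.field k) (G.posClass c)) ∧
    (∀ (d : ℕ) (G : Network d), G.WeaklyReversible → G.Endotactic) ∧
    (∀ (d : ℕ) (G : Network d), G.Endotactic → ∀ c : Fin d → ℝ, (∀ i, 0 < c i) →
      (∀ k : (Fin d → ℕ) × (Fin d → ℕ) → ℝ, (∀ r ∈ G.reactions, 0 < k r) →
        PermanentOn (G.field k) (G.posClass c)) ∧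
      (∀ ε : ℝ, 0 < ε → G.UniformlyPermanentOn ε (G.posClass c))) ∧
    ∃ G : Network 1, G.Endotactic ∧ ¬ G.WeaklyReversible :=
  ⟨fun _ G => (H603.main G).1, fun _ G => (H603.main G).2.1, fun _ G => (H603.main G).2.2,
    H603.strict⟩
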