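import Vale.Agent.P072.H15.Main

/-! # The permanence conjecture and the global attractor conjecture -/

open Vale.Agent.P072

/-- (1) Weakly reversible mass-action systems are permanent on every positive stoichiometric
class (the permanence conjecture, exactly as posed). (2) The global attractor conjecture with a
uniform exponential rate: a mass-action system with a complex balanced state is weakly
reversible, every positive stoichiometric class contains exactly one zero of the field, this
zero is complex balanced, and the solutions in the class converge to it exponentially, with a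
rate `ρ` of the class and a constant `C` uniform on compact sets of initial states. -/
theorem Vale.Agent.Results.P072.GlobalAttractor.result :
    (∀ (d : ℕ) (G : Network d), G.WeaklyReversible →
      ∀ k : (Fin d → ℕ) × (Fin d → ℕ) → ℝ, (∀ r ∈ G.reactions, 0 < k r) →
      ∀ c : Fin d → ℝ, (∀ i, 0 < c i) → PermanentOn (G.field k) (G.posClass c)) ∧
    (∀ (d : ℕ) (G : Network d) (k : (Fin d → ℕ) × (Fin d → ℕ) → ℝ),
      (∀ r ∈ G.reactions, 0 < k r) → (∃ a, G.ComplexBalanced k a) →
      G.WeaklyReversible ∧ ∀ c : Fin d → ℝ, (∀ i, 0 < c i) →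
        ∃ b ∈ G.posClass c, G.ComplexBalanced k b ∧
          (∀ x ∈ G.posClass c, G.field k x = 0 ↔ x = b) ∧
          ∃ ρ > 0, ∀ Q ⊆ G.posClass c, IsCompact Q →
            ∃ C, ∀ x, IsGlobalSolution (G.field k) x → x 0 ∈ Q →
              ∀ t ≥ 0, ‖x t - b‖ ≤ C * Real.exp (-(ρ * t)) * ‖x 0 - b‖) :=
  ⟨fun _ G hG k hk c hc => permanence G hG k hk c hc, fun _ _ _ hk ⟨_, ha⟩ => H15.gac hk ha⟩
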